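import Vale.Agent.P369.Bd3.B2

namespace Vale.Agent.Results.P369.ThermalEnvironment

open Vale.Agent.P369 (Conf)
open Vale.Agent.P369.Sys

/-- The entropy photon-number inequality for every number of modes, every transmissivity and
every first input of finite mean photon number when the second input is the product thermal state
of any mean photon number; and for every pair of number-diagonal inputs. -/
theorem result {n : ℕ} (hn : 1 ≤ n) {η : ℝ} (h0 : 0 ≤ η) (h1 : η ≤ 1)
    {H K : Type} [NormedAddCommGroup H] [InnerProductSpace ℂ H] [CompleteSpace H]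
    [NormedAddCommGroup K] [InnerProductSpace ℂ K] [CompleteSpace K]
    (e : Conf n → H) (he : IsNumberBasis e)
    (f : Conf n → Conf n → K) (hf : IsNumberBasis fun x : Conf n × Conf n => f x.1 x.2)
    (ρA ρB : H →L[ℂ] H) (hA : IsState e ρA) (hB : IsState e ρB)
    (eA : FiniteEnergy e ρA) (eB : FiniteEnergy e ρB)
    (hAB : (∃ s : ℝ, 0 ≤ s ∧ ∀ k : Conf n,
        ρB (e k) = ((∏ j, s ^ k j / (s + 1) ^ (k j + 1) : ℝ) : ℂ) • e k) ∨
      (IsNumberDiagonal e ρA ∧ IsNumberDiagonal e ρB)) :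
    (∃ ρC : H →L[ℂ] H, IsOutput η e f ρA ρB ρC) ∧
    ∀ ρC : H →L[ℂ] H, IsOutput η e f ρA ρB ρC → IsState e ρC ∧ FiniteEnergy e ρC ∧
      η * photonNumber e ρA + (1 - η) * photonNumber e ρB ≤ photonNumber e ρC := by
  rcases hAB with ⟨s, hs, h⟩ | ⟨pA, pB⟩
  · exact Vale.Agent.P369T.epni_thermal (fun _ hκ => Vale.Agent.P369A.ampFd hn hκ) hn h0 h1 e he
      f hf ρA ρB hA eA hB hs h
  · exact Vale.Agent.P369.epni_number hn h0 h1 e he f hf ρA ρB hA hB eA eB pA pB

end Vale.Agent.Results.P369.ThermalEnvironment
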